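import Mathlib

/-!
Helper lemmas for P194: the filtration of a group ring `K[G]` by the powers of the
ideal generated by the augmentation ideal of a normal subgroup `N`.
-/

namespace Vale.Agent.Lib.P194

open MonoidAlgebra

/-- `filt K N m` is the additive subgroup of `K[G]` generated by the products
`(n₁ - 1) (n₂ - 1) ⋯ (n_m - 1) z` with `n_i ∈ N`, `z ∈ K[G]`. -/
noncomputable def filt (K : Type*) [Ring K] {G : Type*} [Group G] (N : Subgroup G) :
    ℕ → AddSubgroup (MonoidAlgebra K G)
  | 0 => ⊤
  | m + 1 => AddSubgroup.closure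
      {x | ∃ n ∈ N, ∃ z ∈ filt K N m, x = (of K G n - 1) * z}

variable {K : Type*} [Ring K] {G : Type*} [Group G]

lemma filt_succ_mem {N : Subgroup G} {m : ℕ} {n : G} {z : MonoidAlgebra K G}
    (hn : n ∈ N) (hz : z ∈ filt K N m) : (of K G n - 1) * z ∈ filt K N (m + 1) :=
  AddSubgroup.subset_closure ⟨n, hn, z, hz, rfl⟩

lemma filt_succ_le {N : Subgroup G} {m : ℕ} {S : AddSubgroup (MonoidAlgebra K G)}
    (h : ∀ n ∈ N, ∀ z ∈ filt K N m, (of K G n - 1) * z ∈ S) : filt K N (m + 1) ≤ S := by
  refine (AddSubgroup.closure_le S).2 ?_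
  rintro x ⟨n, hn, z, hz, rfl⟩
  exact h n hn z hz

lemma filt_mul_right (N : Subgroup G) (m : ℕ) (y : MonoidAlgebra K G) :
    ∀ x ∈ filt K N m, x * y ∈ filt K N m := by
  induction m with
  | zero => intro x _; exact AddSubgroup.mem_top _
  | succ m ih =>
    have : filt K N (m + 1) ≤ (filt K N (m + 1)).comap (AddMonoidHom.mulRight y) := by
      refine filt_succ_le ?_
      intro n hn z hz
      simp only [AddSubgroup.mem_comap, AddMonoidHom.coe_mulRight, mul_assoc]
      exact filt_succ_mem hn (ih z hz)
    intro x hx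
    exact this hx

lemma filt_single_mul (N : Subgroup G) [N.Normal] (m : ℕ) (g : G) (c : K) :
    ∀ x ∈ filt K N m, single g c * x ∈ filt K N m := by
  induction m with
  | zero => intro x _; exact AddSubgroup.mem_top _
  | succ m ih =>
    have : filt K N (m + 1) ≤ (filt K N (m + 1)).comap (AddMonoidHom.mulLeft (single g c)) := by
      refine filt_succ_le ?_
      intro n hn z hz
      simp only [AddSubgroup.mem_comap, AddMonoidHom.coe_mulLeft]
      have e : single g c * ((of K G n - 1) * z)
          = (of K G (g * n * g⁻¹) - 1) * (single g c * z) := by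
        rw [← mul_assoc, ← mul_assoc]
        congr 1
        simp [of_apply, mul_sub, sub_mul, single_mul_single]
      rw [e]
      exact filt_succ_mem (Subgroup.Normal.conj_mem inferInstance n hn g) (ih z hz)
    intro x hx
    exact this hx

lemma filt_mul_left (N : Subgroup G) [N.Normal] (m : ℕ) (y : MonoidAlgebra K G) :
    ∀ x ∈ filt K N m, y * x ∈ filt K N m := by
  intro x hx
  induction y using MonoidAlgebra.induction_linear with
  | zero => simp
  | add a b ha hb => rw [add_mul]; exact add_mem ha hb
  | single g c => exact filt_single_mul N m g c x hx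

lemma sub_section_mem (N : Subgroup G) [N.Normal] (x : MonoidAlgebra K G) :
    x - mapDomain (fun q : G ⧸ N => q.out) (mapDomain (QuotientGroup.mk' N) x)
      ∈ filt K N 1 := by
  induction x using MonoidAlgebra.induction_linear with
  | zero => simp
  | add a b ha hb =>
    rw [mapDomain_add, mapDomain_add, add_sub_add_comm]
    exact add_mem ha hb
  | single g c =>
    rw [mapDomain_single, mapDomain_single]
    set s : G := (QuotientGroup.mk' N g).out with hs
    have hsn : g * s⁻¹ ∈ N := by
      rw [← QuotientGroup.eq_one_iff]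
      have : ((s : G) : G ⧸ N) = (g : G ⧸ N) := by
        rw [hs]; exact Quotient.out_eq' _
      rw [QuotientGroup.mk_mul, QuotientGroup.mk_inv, this, mul_inv_cancel]
    have e : single g c - single s c = (of K G (g * s⁻¹) - 1) * single s c := by
      simp [of_apply, sub_mul, single_mul_single]
    rw [e]
    exact filt_succ_mem hsn (AddSubgroup.mem_top _)

lemma ker_le_filt_one (N : Subgroup G) [N.Normal] {x : MonoidAlgebra K G}
    (hx : mapDomainRingHom K (QuotientGroup.mk' N) x = 0) : x ∈ filt K N 1 := by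
  have h := sub_section_mem (K := K) N x
  have hx' : mapDomain (QuotientGroup.mk' N) x = 0 := hx
  rw [hx', mapDomain_zero, sub_zero] at h
  exact h

lemma ker_mul_filt (N : Subgroup G) [N.Normal] {x z : MonoidAlgebra K G} {m : ℕ}
    (hx : mapDomainRingHom K (QuotientGroup.mk' N) x = 0) (hz : z ∈ filt K N m) :
    x * z ∈ filt K N (m + 1) := by
  have h1 : filt K N 1 ≤ (filt K N (m + 1)).comap (AddMonoidHom.mulRight z) := by
    refine filt_succ_le ?_
    intro n hn y _
    simp only [AddSubgroup.mem_comap, AddMonoidHom.coe_mulRight, mul_assoc]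
    exact filt_succ_mem hn (filt_mul_left N m y z hz)
  exact h1 (ker_le_filt_one N hx)

lemma filt_map {P : Type*} [Group P] (N : Subgroup G) (N' : Subgroup P)
    (T : MonoidAlgebra K G →+ MonoidAlgebra K P) (ρ : G → P) (hρ : ∀ n ∈ N, ρ n ∈ N')
    (hT : ∀ n ∈ N, ∀ z, T ((of K G n - 1) * z) = (of K P (ρ n) - 1) * T z) (m : ℕ) :
    ∀ x ∈ filt K N m, T x ∈ filt K N' m := by
  induction m with
  | zero => intro x _; exact AddSubgroup.mem_top _
  | succ m ih =>
    have : filt K N (m + 1) ≤ (filt K N' (m + 1)).comap T := by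
      refine filt_succ_le ?_
      intro n hn z hz
      simp only [AddSubgroup.mem_comap]
      rw [hT n hn z]
      exact filt_succ_mem (hρ n hn) (ih z hz)
    intro x hx
    exact this hx

lemma charP_monoidAlgebra (p : ℕ) [CharP K p] : CharP (MonoidAlgebra K G) p :=
  charP_of_injective_ringHom (f := (singleOneRingHom : K →+* MonoidAlgebra K G))
    (fun a b h => by simpa using h) p

/-- central shift: if `w` is central and `filt b ≤ w * K[G]` then `filt (a+b) ≤ w * filt a`. -/
lemma filt_add_le_map (N : Subgroup G) (w : MonoidAlgebra K G) (hw : ∀ y, Commute w y) (b : ℕ)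
    (hb : filt K N b ≤ (⊤ : AddSubgroup (MonoidAlgebra K G)).map (AddMonoidHom.mulLeft w))
    (a : ℕ) : filt K N (a + b) ≤ (filt K N a).map (AddMonoidHom.mulLeft w) := by
  induction a with
  | zero => simpa [filt] using hb
  | succ a ih =>
    rw [Nat.add_right_comm]
    refine filt_succ_le ?_
    intro n hn z hz
    obtain ⟨y, hy, rfl⟩ := ih hz
    refine ⟨(of K G n - 1) * y, filt_succ_mem hn hy, ?_⟩
    simp only [AddMonoidHom.coe_mulLeft]
    rw [← mul_assoc, ← mul_assoc, (hw _).eq]

theorem filt_top_eq_bot_of_isPGroup (p : ℕ) [Fact p.Prime] [CharP K p] :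
    ∀ (c : ℕ) (P : Type*) [Group P] [Finite P], Nat.card P = c → IsPGroup p P →
      ∃ m, filt K (⊤ : Subgroup P) m = ⊥ := by
  intro c
  induction c using Nat.strong_induction_on with
  | _ c ih =>
    intro P _ _ hc hP
    by_cases htriv : Subsingleton P
    · refine ⟨1, ?_⟩
      rw [eq_bot_iff]
      refine filt_succ_le ?_
      intro n _ z _
      have : n = 1 := Subsingleton.elim _ _
      simp [this, one_def]
    · have hnt : Nontrivial P := not_subsingleton_iff_nontrivial.1 htriv
      have hcn : Nontrivial (Subgroup.center P) := hP.center_nontrivial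
      obtain ⟨⟨z, hzc⟩, hz1⟩ := exists_ne (1 : Subgroup.center P)
      have hz1' : z ≠ 1 := fun h => hz1 (Subtype.ext h)
      have hzcomm : ∀ g : P, Commute z g := fun g => (Subgroup.mem_center_iff.1 hzc g).symm
      set C : Subgroup P := Subgroup.zpowers z with hC
      have hCn : C.Normal := by
        refine ⟨fun n hn g => ?_⟩
        obtain ⟨i, rfl⟩ := Subgroup.mem_zpowers_iff.1 hn
        have : g * z ^ i * g⁻¹ = z ^ i := by
          rw [((hzcomm g).zpow_left i).symm.eq, mul_inv_cancel_right]
        rw [this]; exact hn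
      have hcard : Nat.card (P ⧸ C) < c := by
        have h1 := Subgroup.card_mul_index C
        rw [Subgroup.index_eq_card, hc] at h1
        have h2 : 1 < Nat.card C := by
          rw [Subgroup.one_lt_card_iff_ne_bot]
          intro hbot
          have : z ∈ C := Subgroup.mem_zpowers z
          rw [hbot, Subgroup.mem_bot] at this
          exact hz1' this
        have h3 : 0 < Nat.card (P ⧸ C) := Nat.card_pos
        nlinarith
      obtain ⟨m', hm'⟩ := ih _ hcard (P ⧸ C) rfl (hP.to_quotient C)
      set u : MonoidAlgebra K P := of K P z - 1 with hu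
      have hucomm : ∀ y, Commute u y := fun y =>
        (of_commute (R := K) hzcomm y).sub_left (Commute.one_left y)
      -- Claim A
      have hA : filt K (⊤ : Subgroup P) m' ≤
          (⊤ : AddSubgroup (MonoidAlgebra K P)).map (AddMonoidHom.mulLeft u) := by
        intro x hx
        have hTx := filt_map (K := K) (⊤ : Subgroup P) (⊤ : Subgroup (P ⧸ C))
          (mapDomainRingHom K (QuotientGroup.mk' C)).toAddMonoidHom (QuotientGroup.mk' C)
          (fun _ _ => Subgroup.mem_top _)
          (by
            intro n _ y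
            show mapDomainRingHom K (QuotientGroup.mk' C) ((of K P n - 1) * y) = _
            rw [map_mul, map_sub, map_one]
            simp [of_apply]) m' x hx
        rw [hm', AddSubgroup.mem_bot] at hTx
        have hx1 : x ∈ filt K C 1 := ker_le_filt_one C hTx
        have hle : filt K C 1 ≤
            (⊤ : AddSubgroup (MonoidAlgebra K P)).map (AddMonoidHom.mulLeft u) := by
          refine filt_succ_le ?_
          intro n hn y _
          obtain ⟨i, rfl⟩ := mem_powers_iff_mem_zpowers.2 hn
          refine ⟨(∑ j ∈ Finset.range i, (of K P z) ^ j) * y, AddSubgroup.mem_top _, ?_⟩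
          simp only [AddMonoidHom.coe_mulLeft]
          rw [← mul_assoc, hu, mul_geom_sum, map_pow]
        exact hle hx1
      -- Claim B
      have hB : ∀ j : ℕ, filt K (⊤ : Subgroup P) (m' * j) ≤
          (⊤ : AddSubgroup (MonoidAlgebra K P)).map (AddMonoidHom.mulLeft (u ^ j)) := by
        intro j
        induction j with
        | zero =>
          intro x _
          exact ⟨x, AddSubgroup.mem_top _, by simp⟩
        | succ j ihj =>
          have h1 := filt_add_le_map (K := K) (⊤ : Subgroup P) (u ^ j)
            (fun y => (hucomm y).pow_left j) (m' * j) ihj m'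
          intro x hx
          have hx' : x ∈ filt K (⊤ : Subgroup P) (m' + m' * j) := by
            have : m' * (j + 1) = m' + m' * j := by ring
            rwa [this] at hx
          obtain ⟨y, hy, rfl⟩ := h1 hx'
          obtain ⟨y', _, rfl⟩ := hA hy
          refine ⟨y', AddSubgroup.mem_top _, ?_⟩
          simp only [AddMonoidHom.coe_mulLeft]
          rw [pow_succ, mul_assoc]
      obtain ⟨k, hk⟩ := hP z
      have hchar : CharP (MonoidAlgebra K P) p := charP_monoidAlgebra p
      have hu0 : u ^ (p ^ k) = 0 := by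
        rw [hu, sub_pow_char_pow_of_commute p k (Commute.one_right _), ← map_pow, hk]
        simp [one_def]
      refine ⟨m' * p ^ k, ?_⟩
      rw [eq_bot_iff]
      intro x hx
      obtain ⟨y, _, rfl⟩ := hB (p ^ k) hx
      simp [hu0]

/-- In a residually finite-`p` group finitely many nontrivial elements can be avoided at once. -/
lemma exists_normal_avoiding (p : ℕ) [Fact p.Prime] {H : Type*} [Group H]
    (hH : ∀ n : H, n ≠ 1 → ∃ M : Subgroup H, M.Normal ∧ (∃ k : ℕ, M.index = p ^ k) ∧ n ∉ M)
    (S : Finset H) (hS : ∀ s ∈ S, s ≠ 1) :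
    ∃ (M : Subgroup H) (_ : M.Normal), M.FiniteIndex ∧ IsPGroup p (H ⧸ M) ∧ ∀ s ∈ S, s ∉ M := by
  classical
  induction S using Finset.induction_on with
  | empty =>
    refine ⟨⊤, inferInstance, inferInstance, ?_, by simp⟩
    intro g
    exact ⟨0, (QuotientGroup.subsingleton_quotient_top).elim _ _⟩
  | insert a S _ ih =>
    obtain ⟨M₁, hn₁, hf₁, hp₁, ha₁⟩ := ih (fun s hs => hS s (Finset.mem_insert_of_mem hs))
    obtain ⟨M₂, hn₂, ⟨k, hk⟩, ha₂⟩ := hH a (hS a (Finset.mem_insert_self _ _))
    have hf₂ : M₂.FiniteIndex := ⟨by rw [hk]; exact pow_ne_zero _ (Fact.out : p.Prime).ne_zero⟩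
    have hp₂ : IsPGroup p (H ⧸ M₂) := IsPGroup.of_card (n := k) (by rw [← Subgroup.index_eq_card, hk])
    refine ⟨M₁ ⊓ M₂, inferInstance, inferInstance, ?_, ?_⟩
    · intro g
      induction g using QuotientGroup.induction_on with
      | H x =>
        obtain ⟨k₁, hk₁⟩ := hp₁ (x : H ⧸ M₁)
        obtain ⟨k₂, hk₂⟩ := hp₂ (x : H ⧸ M₂)
        rw [← QuotientGroup.mk_pow, QuotientGroup.eq_one_iff] at hk₁ hk₂
        refine ⟨k₁ + k₂, ?_⟩
        rw [← QuotientGroup.mk_pow, QuotientGroup.eq_one_iff]
        constructor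
        · rw [pow_add, pow_mul]; exact pow_mem hk₁ _
        · rw [pow_add, mul_comm, pow_mul]; exact pow_mem hk₂ _
    · intro s hs hsM
      rcases Finset.mem_insert.1 hs with rfl | hs'
      · exact ha₂ hsM.2
      · exact ha₁ s hs' hsM.1

/-- restriction `K[G] → K[N]` is left `N`-equivariant -/
lemma comap_of_mul (N : Subgroup G) (n : N) (z : MonoidAlgebra K G) :
    comapDomainAddMonoidHom (R := K) N.subtype Subtype.val_injective (of K G (n : G) * z)
      = of K N n * comapDomainAddMonoidHom (R := K) N.subtype Subtype.val_injective z := by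
  ext a
  simp [comapDomainAddMonoidHom, of_apply, coeff_comapDomain, coeff_single_mul_apply]

theorem iInf_filt_eq_bot (p : ℕ) [Fact p.Prime] [CharP K p] (N : Subgroup G)
    (hN : ∀ n : N, n ≠ 1 → ∃ M : Subgroup N, M.Normal ∧ (∃ k : ℕ, M.index = p ^ k) ∧ n ∉ M)
    (x : MonoidAlgebra K G) (hx : ∀ m, x ∈ filt K N m) : x = 0 := by
  classical
  by_contra hx0
  obtain ⟨g₀, hg₀⟩ : ∃ g, x.coeff g ≠ 0 := by
    by_contra hcon
    push Not at hcon
    exact hx0 (by ext g; simpa using hcon g)
  set x' : MonoidAlgebra K G := x * single g₀⁻¹ 1 with hx'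
  have hx'm : ∀ m, x' ∈ filt K N m := fun m => filt_mul_right N m _ x (hx m)
  have hx'1 : x'.coeff 1 ≠ 0 := by
    rw [hx', coeff_mul_single_apply]
    simpa using hg₀
  set r : MonoidAlgebra K G →+ MonoidAlgebra K N :=
    comapDomainAddMonoidHom (R := K) N.subtype Subtype.val_injective with hr
  set α : MonoidAlgebra K N := r x' with hα
  have hα1 : α.coeff 1 ≠ 0 := by
    simpa [hα, hr, comapDomainAddMonoidHom, coeff_comapDomain] using hx'1
  obtain ⟨M, hMn, hMf, hMp, hMS⟩ := exists_normal_avoiding p hN (α.coeff.support.erase 1)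
    (fun s hs => (Finset.mem_erase.1 hs).1)
  set T : MonoidAlgebra K G →+ MonoidAlgebra K (N ⧸ M) :=
    (mapDomainRingHom K (QuotientGroup.mk' M)).toAddMonoidHom.comp r with hT
  have hfin : Finite (N ⧸ M) := Subgroup.finite_quotient_of_finiteIndex
  obtain ⟨m, hm⟩ := filt_top_eq_bot_of_isPGroup (K := K) p _ (N ⧸ M) rfl hMp
  have hTx := filt_map (K := K) N (⊤ : Subgroup (N ⧸ M)) T
    (fun g => if h : g ∈ N then QuotientGroup.mk' M ⟨g, h⟩ else 1)
    (fun _ _ => Subgroup.mem_top _)
    (by
      intro n hn z
      have h1 : r ((of K G n - 1) * z) = (of K N ⟨n, hn⟩ - 1) * r z := by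
        rw [sub_mul, sub_mul, one_mul, one_mul, map_sub]
        congr 1
        exact comap_of_mul N ⟨n, hn⟩ z
      show mapDomainRingHom K (QuotientGroup.mk' M) (r ((of K G n - 1) * z)) = _
      rw [h1, map_mul, map_sub, map_one, dif_pos hn]
      simp [hT, of_apply]) m x' (hx'm m)
  rw [hm, AddSubgroup.mem_bot] at hTx
  have hTx' : mapDomain (QuotientGroup.mk' M) α = 0 := hTx
  rw [← single_add_erase 1 α, mapDomain_add, mapDomain_single] at hTx'
  have h2 : (mapDomain (QuotientGroup.mk' M) (α.erase 1)).coeff 1 = 0 := by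
    have hsup := Finsupp.mapDomain_support (f := QuotientGroup.mk' M) (s := (α.erase 1).coeff)
    have : (1 : N ⧸ M) ∉ (Finsupp.mapDomain (QuotientGroup.mk' M) (α.erase 1).coeff).support := by
      intro h1
      obtain ⟨s, hs, hs1⟩ := Finset.mem_image.1 (hsup h1)
      rw [coeff_erase, Finsupp.support_erase] at hs
      exact hMS s hs ((QuotientGroup.eq_one_iff s).1 hs1)
    exact Finsupp.notMem_support_iff.1 this
  have h3 := congrArg (fun y => y.coeff 1) hTx'
  simp only [coeff_add, Finsupp.add_apply, h2, map_one, coeff_single, Finsupp.single_eq_same,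
    add_zero, coeff_zero, Finsupp.zero_apply] at h3
  exact hα1 h3

/-- An idempotent matrix over `K[G]` all of whose entries die in `K[G/N]` has all entries in every
term of the filtration. -/
lemma idem_matrix_mem_filt (N : Subgroup G) [N.Normal] {ι : Type*} [Fintype ι]
    (F : Matrix ι ι (MonoidAlgebra K G)) (hF : F * F = F)
    (hker : ∀ i j, mapDomainRingHom K (QuotientGroup.mk' N) (F i j) = 0) (m : ℕ) :
    ∀ i j, F i j ∈ filt K N m := by
  induction m with
  | zero => intro i j; exact AddSubgroup.mem_top _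
  | succ m ih =>
    intro i j
    rw [← hF, Matrix.mul_apply]
    exact sum_mem (fun k _ => ker_mul_filt N (hker i k) (ih k j))

/-- Main transfer statement, for matrices of any size. -/
theorem matrix_mul_eq_one_symm (p : ℕ) [Fact p.Prime] [CharP K p] (N : Subgroup G) [N.Normal]
    (hN : ∀ n : N, n ≠ 1 → ∃ M : Subgroup N, M.Normal ∧ (∃ k : ℕ, M.index = p ^ k) ∧ n ∉ M)
    {ι : Type*} [Fintype ι] [DecidableEq ι]
    (hQ : IsDedekindFiniteMonoid (Matrix ι ι (MonoidAlgebra K (G ⧸ N))))
    {A B : Matrix ι ι (MonoidAlgebra K G)} (hAB : A * B = 1) : B * A = 1 := by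
  set π := (mapDomainRingHom K (QuotientGroup.mk' N)).mapMatrix (m := ι) with hπ
  have h1 : π A * π B = 1 := by rw [← map_mul, hAB, map_one]
  have h2 : π B * π A = 1 := hQ.mul_eq_one_symm h1
  set F : Matrix ι ι (MonoidAlgebra K G) := 1 - B * A with hFdef
  have hFF : F * F = F := by
    have : B * A * (B * A) = B * A := by
      rw [mul_assoc, ← mul_assoc A B A, hAB, one_mul]
    rw [hFdef, mul_sub, sub_mul, sub_mul, one_mul, mul_one, one_mul, this]
    abel
  have hπF : π F = 0 := by rw [hFdef, map_sub, map_one, map_mul, h2, sub_self]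
  have hker : ∀ i j, mapDomainRingHom K (QuotientGroup.mk' N) (F i j) = 0 := by
    intro i j
    have := congrFun (congrFun hπF i) j
    simpa [hπ] using this
  have hF0 : F = 0 := by
    refine Matrix.ext (fun i j => ?_)
    exact iInf_filt_eq_bot p N hN (F i j) (fun m => idem_matrix_mem_filt N F hFF hker m i j)
  have := sub_eq_zero.1 hF0
  exact this.symm

/-- Main transfer statement, for elements. -/
theorem mul_eq_one_symm_of_quotient (p : ℕ) [Fact p.Prime] [CharP K p] (N : Subgroup G) [N.Normal]
    (hN : ∀ n : N, n ≠ 1 → ∃ M : Subgroup N, M.Normal ∧ (∃ k : ℕ, M.index = p ^ k) ∧ n ∉ M)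
    (hQ : IsDedekindFiniteMonoid (MonoidAlgebra K (G ⧸ N)))
    {a b : MonoidAlgebra K G} (hab : a * b = 1) : b * a = 1 := by
  set π := mapDomainRingHom K (QuotientGroup.mk' N) with hπ
  have h1 : π a * π b = 1 := by rw [← map_mul, hab, map_one]
  have h2 : π b * π a = 1 := hQ.mul_eq_one_symm h1
  set F : MonoidAlgebra K G := 1 - b * a with hFdef
  have hFF : F * F = F := by
    have : b * a * (b * a) = b * a := by
      rw [mul_assoc, ← mul_assoc a b a, hab, one_mul]
    rw [hFdef, mul_sub, sub_mul, sub_mul, one_mul, mul_one, one_mul, this]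
    abel
  have hπF : π F = 0 := by rw [hFdef, map_sub, map_one, map_mul, h2, sub_self]
  have hmem : ∀ m, F ∈ filt K N m := by
    intro m
    induction m with
    | zero => exact AddSubgroup.mem_top _
    | succ m ih => rw [← hFF]; exact ker_mul_filt N hπF ih
  have hF0 : F = 0 := iInf_filt_eq_bot p N hN F hmem
  exact (sub_eq_zero.1 hF0).symm

end Vale.Agent.Lib.P194
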